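import Vale.Agent.P366.H707.G.Field
import Vale.Agent.P366.CF.FluxZ
import Vale.Agent.P366.CG.R
import Vale.Agent.P366.H45.G1

/-! Metrics `g = δ + F df ⊗ df`: the flux at infinity. -/

open MeasureTheory Metric Filter Topology Set
open scoped ContDiff ENNReal

noncomputable section
namespace Vale.Agent.P366.FG

open Vale.Agent.P366 (flux)
open Vale.Agent.P366.H353.N (kd SI om)
open Vale.Agent.P366.KSN (BO BO_th)
open Vale.Agent.P366.H474.L (Ef Ef_cont)
open Vale.Agent.P366.H474.W (flux_congr flux_sub flux_neg flux_sphInt)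
open Vale.Agent.P366.CF (QZ)
open Vale.Agent.P366.Stmt (E)

variable {n : ℕ} {f F u W : E n → ℝ} {D : Stmt.Exterior n} {y : E n}

namespace G3

/-- The momentum field far out. -/
lemma BO_QZ [hn : Fact (3 ≤ n)] {q a : ℝ} (hq0 : 0 < q)
    (af : ∀ i j k l, Stmt.BigO q (fun x => D.g x i j - if i = j then 1 else 0) ∧
      Stmt.BigO (q + 1) (Stmt.pd k fun x => D.g x i j) ∧
      Stmt.BigO (q + 1 + 1) (Stmt.pd l (Stmt.pd k fun x => D.g x i j)) ∧
      Stmt.BigO (q + 1) (fun x => D.K x i j) ∧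
      Stmt.BigO (q + 1 + 1) (Stmt.pd k fun x => D.K x i j))
    {R0 : ℝ} (hw : ∀ y : E n, R0 < ‖y‖ → 0 < 1 + W y) (bW : BO q W)
    (bup : ∀ i k, BO q fun y => Stmt.up D.g i k y - kd i k)
    {Z : Fin n → E n → ℝ} {z : Fin n → ℝ} (ha0 : 0 < a)
    (bZd : ∀ j, BO a fun y => Z j y - z j) (i : Fin n) :
    BO (q + 1 + min q a) fun y => QZ W D.g D.K Z i y - ∑ j, z j * Stmt.momT D.g D.K y j i := by
  have i0 : Fin n := ⟨0, by have := hn.out; omega⟩
  have bK : ∀ i j, BO (q + 1) fun y => D.K y i j := fun i j => BO.of_bigO (af i j i0 i0).2.2.2.1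
  have bg0 : ∀ i j, BO q fun y => D.g y i j - if i = j then 1 else 0 := fun i j =>
    BO.of_bigO (af i j i0 i0).1
  have bg : ∀ i j, BO 0 fun y => D.g y i j := fun i j =>
    (((bg0 i j).mono hq0.le).add (BO.const (if i = j then 1 else 0))).congr (R := 0)
      fun y _ => by ring
  have bup0 : ∀ i k, BO 0 fun y => Stmt.up D.g i k y := fun i k =>
    (((bup i k).mono hq0.le).add (BO.const (kd i k))).congr (R := 0) fun y _ => by ring
  have btr : BO (q + 1) (Stmt.tr D.g D.K) :=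
    BO.sum Finset.univ fun i => BO.sum Finset.univ fun j => (bup0 i j).bmul (bK i j)
  have bM : ∀ i j, BO (q + 1) fun y => Stmt.momT D.g D.K y i j := fun i j =>
    (bK i j).sub (btr.mulb (bg i j))
  have bZ : ∀ j, BO 0 (Z j) := fun j =>
    (((bZd j).mono ha0.le).add (BO.const (z j))).congr (R := 0) fun y _ => by ring
  obtain ⟨M, hM⟩ : ∃ M : Fin n → E n → ℝ, M = fun k y => ∑ j, Stmt.momT D.g D.K y k j * Z j y :=
    ⟨_, rfl⟩
  have bMM : ∀ k, BO (q + 1) (M k) := fun k => by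
    rw [hM]; exact BO.sum Finset.univ fun j => (bM k j).mulb (bZ j)
  have bs : BO q fun y => √(1 + W y) - 1 := CF.Fx.BO_sqrt hw bW
  have h1 : min q a ≤ q := min_le_left _ _
  have h2 : min q a ≤ a := min_le_right _ _
  have t1 : BO (q + 1 + min q a) fun y => (√(1 + W y) - 1) * ∑ k, Stmt.up D.g i k y * M k y := by
    have b1 := (bs.mono h1).mul (BO.sum Finset.univ fun k => (bup0 i k).bmul (bMM k))
    rwa [show min q a + (q + 1) = q + 1 + min q a by ring] at b1
  have t2 : BO (q + 1 + min q a) fun y => ∑ k, (Stmt.up D.g i k y - kd i k) * M k y := by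
    have b1 := BO.sum Finset.univ fun k => ((bup i k).mono h1).mul (bMM k)
    rwa [show min q a + (q + 1) = q + 1 + min q a by ring] at b1
  have t3 : BO (q + 1 + min q a) fun y => ∑ j, Stmt.momT D.g D.K y i j * (Z j y - z j) :=
    BO.sum Finset.univ fun j => (bM i j).mul ((bZd j).mono h2)
  refine ((t1.add t2).add t3).congr (R := 0) fun y _ => ?_
  have e1 : ∑ j, Stmt.momT D.g D.K y i j * (Z j y - z j) = M i y -
      ∑ j, z j * Stmt.momT D.g D.K y j i := by
    rw [hM, ← Finset.sum_sub_distrib]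
    refine Finset.sum_congr rfl fun j _ => ?_
    have e2 : Stmt.momT D.g D.K y j i = Stmt.momT D.g D.K y i j := by
      unfold Stmt.momT
      rw [(D.symm y j i).1, (D.symm y j i).2]
    rw [e2]
    ring
  have e3 : ∑ k, (Stmt.up D.g i k y - kd i k) * M k y = ∑ k, Stmt.up D.g i k y * M k y - M i y := by
    simp only [sub_mul, Finset.sum_sub_distrib]
    congr 1
    simp [kd]
  have e4 : QZ W D.g D.K Z i y = √(1 + W y) * ∑ k, Stmt.up D.g i k y * M k y := by
    rw [hM]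
    rfl
  rw [e1, e3, e4]
  ring

/-- The flux of the momentum tensor. -/
lemma flux_mom [hn : Fact (3 ≤ n)] {P : Fin n → ℝ} (hMom : D.IsMomentum P) (z : Fin n → ℝ)
    (hc : ∀ᶠ r : ℝ in atTop, ∀ y : E n, ‖y‖ = r →
      ∀ i j, ContinuousAt (fun y => Stmt.momT D.g D.K y i j) y) :
    Tendsto (flux fun i y => ∑ j, z j * Stmt.momT D.g D.K y j i) atTop
      (𝓝 (((n : ℝ) - 1) * om n * ∑ j, z j * P j)) := by
  have g1 : Tendsto (fun r => ∑ j, z j * (((n : ℝ) - 1) * om n *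
      Stmt.flx (fun i x => Stmt.momT D.g D.K x j i) r)) atTop
      (𝓝 (∑ j, z j * (((n : ℝ) - 1) * om n * P j))) :=
    tendsto_finsetSum _ fun j _ => (Tendsto.const_mul _ (hMom j)).const_mul _
  have e0 : ∑ j, z j * (((n : ℝ) - 1) * om n * P j) = ((n : ℝ) - 1) * om n * ∑ j, z j * P j := by
    rw [Finset.mul_sum]
    exact Finset.sum_congr rfl fun j _ => by ring
  rw [e0] at g1
  refine g1.congr' ?_
  filter_upwards [hc, eventually_gt_atTop 0] with r hr hr0
  have g3 := KSL.flux_lin (W := fun (j : Fin n) (i : Fin n) (y : E n) =>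
    Stmt.momT D.g D.K y j i) hr0 (fun j => -z j) (fun j i y hy => hr y hy j i)
  have g4 : (fun i y => -∑ b, -z b * Stmt.momT D.g D.K y b i) =
      fun (i : Fin n) (y : E n) => ∑ j, z j * Stmt.momT D.g D.K y j i := by
    funext i y
    rw [← Finset.sum_neg_distrib]
    exact Finset.sum_congr rfl fun j _ => by ring
  rw [g4] at g3
  rw [g3, ← Finset.sum_neg_distrib]
  refine Finset.sum_congr rfl fun j _ => ?_
  rw [← KSN.X5.flx_eq, ← flux_sphInt]
  ring

/-- A flux field which differs from a given one by a small term. -/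
lemma flux_of_BO {X X' : Fin n → E n → ℝ} {p e : ℝ} (hp : (n : ℝ) - 1 < p)
    (hX : ∀ i, BO p fun y => X i y - X' i y) (h' : Tendsto (flux X') atTop (𝓝 e))
    (hc : ∀ᶠ r : ℝ in atTop, ∀ y : E n, ‖y‖ = r → ∀ i, ContinuousAt (X i) y)
    (hc' : ∀ᶠ r : ℝ in atTop, ∀ y : E n, ‖y‖ = r → ∀ i, ContinuousAt (X' i) y) :
    Tendsto (flux X) atTop (𝓝 e) := by
  have hE : BO p fun y => ∑ i, (X i y - X' i y) * (y i / ‖y‖) :=
    BO.sum _ fun i => (hX i).mulb (BO_th i)
  have g2 := (hE.tendsto hp).add h'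
  rw [zero_add] at g2
  refine g2.congr' ?_
  filter_upwards [hc, hc', eventually_gt_atTop 0] with r hr hr' hr0
  have e1 : r ^ (n - 1) * SI (fun θ => (fun y : E n => ∑ i, (X i y - X' i y) *
      (y i / ‖y‖)) (r • θ)) = flux (fun i y => X i y - X' i y) r := rfl
  rw [e1, flux_sub (W := X) (W' := X') hr0 (fun i y hy => hr y hy i)
    (fun i y hy => hr' y hy i)]
  ring

/-- The flux of the energy field. -/
lemma flux_Ef [hn : Fact (3 ≤ n)] {m : ℝ} (hm : D.IsEnergy m) :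
    Tendsto (flux (Ef D)) atTop (𝓝 (((n : ℝ) - 1) * om n * m)) := by
  have g1 := Tendsto.const_mul (((n : ℝ) - 1) * om n) hm
  refine g1.congr' ?_
  filter_upwards [eventually_gt_atTop 0] with r hr0
  rw [← KSN.X5.flx_eq, ← flux_sphInt]
  have e2 : flux (fun i x => (∑ j, (Stmt.pd j (fun y => D.g y i j) x -
      Stmt.pd i (fun y => D.g y j j) x)) / 2) r = flux (Ef D) r := rfl
  rw [e2]

section main

variable (hf : Stmt.Smooth f) (hF : Stmt.Smooth F) (hu : Stmt.Smooth u)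
  (hg : ∀ x, 0 ≤ D.F x → ∀ i j, D.g x i j = lvlMetric f F x i j)
  (hpos : ∀ y, 0 ≤ D.F y → 0 < wsq f F y)
  (hup : ∀ y, 0 ≤ D.F y → ∀ i j, Stmt.up D.g i j y = (if i = j then 1 else 0) -
    F y * Stmt.pd i f y * Stmt.pd j f y / wsq f F y)
  (hgr : ∀ y, 0 ≤ D.F y → ∀ i, grad D.g f i y = Stmt.pd i f y / wsq f F y)

include hg in
lemma ww_eq (hy : 0 ≤ D.F y) : ww f F y = ∑ i, (D.g y i i - if i = i then 1 else 0) := by
  unfold ww
  rw [Finset.mul_sum]
  refine Finset.sum_congr rfl fun i _ => ?_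
  rw [hg y hy]
  unfold lvlMetric
  ring

lemma wsq_eq (y : E n) : wsq f F y = 1 + ww f F y := rfl

include hf hF in
lemma wsq_cont : Continuous (wsq f F) := by
  unfold wsq
  exact continuous_const.add (hF.continuous.mul (continuous_finsetSum _ fun i _ =>
    (Vale.Agent.H45G.smooth_pd hf i).continuous.pow 2))

include hf hF in
lemma QZ_cont (hy : 0 ≤ D.F y) {Z : Fin n → E n → ℝ} (hZ : ∀ j, ContinuousAt (Z j) y)
    (i : Fin n) : ContinuousAt (QZ (ww f F) D.g D.K Z i) y := by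
  unfold QZ
  have h1 : ContinuousAt (fun y => √(wsq f F y)) y := (wsq_cont hf hF).continuousAt.sqrt
  refine ContinuousAt.mul h1 (tendsto_finsetSum _ fun k _ =>
    ContinuousAt.mul (KSS.upD_cd hy i k).continuousAt (tendsto_finsetSum _ fun j _ =>
      ContinuousAt.mul (H474.L.momT_cont (D.pos y hy).det_pos.ne' k j) (hZ j)))

include hf hu in
lemma Zu_cont (hy : 0 ≤ D.F y) (j : Fin n) : ContinuousAt (Zu D.g f u j) y := by
  unfold Zu grad
  exact ContinuousAt.mul hu.continuous.continuousAt (tendsto_finsetSum _ fun k _ =>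
    ContinuousAt.mul (KSS.upD_cd hy j k).continuousAt
      (Vale.Agent.H45G.smooth_pd hf k).continuous.continuousAt)

include hf in
lemma cf_cont (i : Fin n) : Continuous (cf f i) := by
  unfold cf FG.hf
  have h1 : ∀ i, Continuous (Stmt.pd i f) := fun i => (Vale.Agent.H45G.smooth_pd hf i).continuous
  have h2 : ∀ i j, Continuous (Stmt.pd i (Stmt.pd j f)) := fun i j =>
    (Vale.Agent.H45G.smooth_pd (Vale.Agent.H45G.smooth_pd hf j) i).continuous
  exact ((h1 i).mul (continuous_finsetSum _ fun j _ => h2 j j)).sub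
    (continuous_finsetSum _ fun j _ => (h2 i j).mul (h1 j))

include hf hF hu hpos in
lemma XG_cont (hy : 0 ≤ D.F y) (i : Fin n) : ContinuousAt (XG D.g D.K f F u i) y := by
  have hw := (wsq_cont hf hF).continuousAt (x := y)
  have h0 := (hpos y hy).ne'
  unfold XG
  refine ContinuousAt.sub (ContinuousAt.sub ?_ ?_) ?_
  · have e : X0 D.g f F i = fun y => Ef D i y / wsq f F y := rfl
    rw [e]
    exact (Ef_cont D i).continuousAt.div hw h0
  · exact QZ_cont hf hF hy (fun j => Zu_cont hf hu hy j) i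
  · unfold X2
    exact ((hu.continuous.pow 2).mul (cf_cont hf i)).continuousAt.div
      (continuousAt_const.mul hw) (mul_ne_zero two_ne_zero h0)

end main

end G3

section main

variable (hn : 3 ≤ n) (hf : Stmt.Smooth f) (hF : Stmt.Smooth F) (hu : Stmt.Smooth u)
  (hg : ∀ x, 0 ≤ D.F x → ∀ i j, D.g x i j = lvlMetric f F x i j)
  (hpos : ∀ y, 0 ≤ D.F y → 0 < wsq f F y)
  (hup : ∀ y, 0 ≤ D.F y → ∀ i j, Stmt.up D.g i j y = (if i = j then 1 else 0) -
    F y * Stmt.pd i f y * Stmt.pd j f y / wsq f F y)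
  (hgr : ∀ y, 0 ≤ D.F y → ∀ i, grad D.g f i y = Stmt.pd i f y / wsq f F y)
  (hAF : D.IsAF)

include hn hf hF hg hpos hup hAF in
/-- The flux of the momentum field of a vector field. -/
theorem flux_QY_aux {P : Fin n → ℝ} (hP : D.IsMomentum P) {Y : Fin n → E n → ℝ}
    (hY : ∀ i, Stmt.Smooth (Y i)) {v : Fin n → ℝ}
    (hYa : ∃ a : ℝ, (n : ℝ) / 2 - 1 < a ∧ ∀ i, Stmt.BigO a fun x => Y i x - v i) :
    Tendsto (flux (QZ (ww f F) D.g D.K Y)) atTop
      (𝓝 (((n : ℝ) - 1) * om n * ∑ j, v j * P j)) := by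
  have : Fact (3 ≤ n) := ⟨hn⟩
  have i0 : Fin n := ⟨0, by omega⟩
  obtain ⟨q, hq, af⟩ := hAF
  obtain ⟨a, ha, hYa⟩ := hYa
  obtain ⟨R0, hR0⟩ := D.dom.2.2.2
  have h3 : (3 : ℝ) ≤ n := by exact_mod_cast hn
  have hq0 : 0 < q := by linarith
  have ha0 : 0 < a := by linarith
  have bW : BO q (ww f F) := (BO.sum Finset.univ fun i =>
    BO.of_bigO (af i i i0 i0).1).congr (R := R0) fun y hy => G3.ww_eq hg (hR0 y hy).le
  have binv : BO 0 fun y => 1 / (1 + ww f F y) := KSN.BO.inv_one_add hq0 bW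
  have bup : ∀ i k, BO q fun y => Stmt.up D.g i k y - kd i k := fun i k =>
    (((BO.of_bigO (af i k i0 i0).1).mulb binv).neg).congr (R := R0) fun y hy => by
      rw [hup y (hR0 y hy).le, hg y (hR0 y hy).le]
      unfold lvlMetric kd
      rw [G3.wsq_eq]
      ring
  have hp : (n : ℝ) - 1 < q + 1 + min q a := by
    have := lt_min hq ha
    linarith
  have hcM : ∀ᶠ r : ℝ in atTop, ∀ y : E n, ‖y‖ = r →
      ∀ i j, ContinuousAt (fun y => Stmt.momT D.g D.K y i j) y := by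
    filter_upwards [eventually_gt_atTop R0] with r hr y hy i j
    exact H474.L.momT_cont (D.pos y (hR0 y (by
      show R0 < ‖y‖
      rw [hy]
      exact hr)).le).det_pos.ne' i j
  refine G3.flux_of_BO hp (fun i => G3.BO_QZ (W := ww f F) hq0 af (fun y hy => hpos y (hR0 y hy).le) bW bup ha0
    (fun j => BO.of_bigO (hYa j)) i) (G3.flux_mom hP v hcM) ?_ ?_
  · filter_upwards [eventually_gt_atTop R0] with r hr y hy i
    exact G3.QZ_cont hf hF (hR0 y (by
      show R0 < ‖y‖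
      rw [hy]
      exact hr)).le (fun j => (hY j).continuous.continuousAt) i
  · filter_upwards [hcM] with r hr y hy i
    exact tendsto_finsetSum _ fun j _ => (hr y hy j i).const_mul _

include hn hf hF hu hg hpos hup hgr hAF in
/-- The flux field. -/
theorem flux_XG_aux {m : ℝ} (hm : D.IsEnergy m)
    (hua : ∃ a : ℝ, (n : ℝ) / 2 - 1 < a ∧ ∀ i, Stmt.BigO a fun x => u x * Stmt.pd i f x)
    (hub : ∃ b : ℝ, (n : ℝ) - 1 < b ∧ ∀ i, Stmt.BigO b fun x => u x ^ 2 * cf f i x) :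
    Tendsto (flux (XG D.g D.K f F u)) atTop (𝓝 (((n : ℝ) - 1) * om n * m)) := by
  have : Fact (3 ≤ n) := ⟨hn⟩
  have i0 : Fin n := ⟨0, by omega⟩
  obtain ⟨q, hq, af⟩ := hAF
  obtain ⟨a, ha, hua⟩ := hua
  obtain ⟨b, hb, hub⟩ := hub
  obtain ⟨R0, hR0⟩ := D.dom.2.2.2
  have h3 : (3 : ℝ) ≤ n := by exact_mod_cast hn
  have hq0 : 0 < q := by linarith
  have ha0 : 0 < a := by linarith
  have bW : BO q (ww f F) := (BO.sum Finset.univ fun i =>
    BO.of_bigO (af i i i0 i0).1).congr (R := R0) fun y hy => G3.ww_eq hg (hR0 y hy).le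
  have binv : BO 0 fun y => 1 / (1 + ww f F y) := KSN.BO.inv_one_add hq0 bW
  have bup : ∀ i k, BO q fun y => Stmt.up D.g i k y - kd i k := fun i k =>
    (((BO.of_bigO (af i k i0 i0).1).mulb binv).neg).congr (R := R0) fun y hy => by
      rw [hup y (hR0 y hy).le, hg y (hR0 y hy).le]
      unfold lvlMetric kd
      rw [G3.wsq_eq]
      ring
  have hp : (n : ℝ) - 1 < q + 1 + min q a := by
    have := lt_min hq ha
    linarith
  have bEf : ∀ i, BO (q + 1) (Ef D i) := fun i => by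
    have : BO (q + 1) fun y => (∑ j, (Stmt.pd j (fun y => D.g y i j) y -
        Stmt.pd i (fun y => D.g y j j) y)) / 2 :=
      (BO.sum Finset.univ fun j => (BO.of_bigO (af i j j i0).2.1).sub
        (BO.of_bigO (af j j i i0).2.1)).div_const 2
    exact this
  obtain ⟨p, hp1, hp2, hp3, hp4⟩ : ∃ p, (n : ℝ) - 1 < p ∧ p ≤ q + (q + 1) ∧ p ≤ q + 1 + min q a ∧
      p ≤ b := ⟨min (q + (q + 1)) (min (q + 1 + min q a) b),
    lt_min (by linarith) (lt_min hp hb), min_le_left _ _,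
    (min_le_right _ _).trans (min_le_left _ _), (min_le_right _ _).trans (min_le_right _ _)⟩
  have bX : ∀ i, BO p fun y => XG D.g D.K f F u i y - Ef D i y := by
    intro i
    have t1 : BO p fun y => ww f F y * Ef D i y * (1 / (1 + ww f F y)) :=
      ((bW.mul (bEf i)).mulb binv).mono hp2
    have t2 : BO p fun y => QZ (ww f F) D.g D.K (Zu D.g f u) i y := by
      have h1 := G3.BO_QZ (W := ww f F) hq0 af (fun y hy => hpos y (hR0 y hy).le) bW bup (Z := Zu D.g f u)
        (z := fun _ => 0) ha0 (fun j => (((BO.of_bigO (hua j)).mulb binv).congr (R := R0)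
          fun y hy => by
            unfold Zu
            rw [hgr y (hR0 y hy).le, G3.wsq_eq]
            ring)) i
      exact (h1.mono hp3).congr (R := 0) fun y _ => by simp
    have t3 : BO p fun y => u y ^ 2 * cf f i y * (1 / (1 + ww f F y)) / 2 :=
      (((BO.of_bigO (hub i)).mulb binv).div_const 2).mono hp4
    refine ((t1.neg.sub t2).sub t3).congr (R := R0) fun y hy => ?_
    have hw : 1 + ww f F y ≠ 0 := (hpos y (hR0 y hy).le).ne'
    have e : X0 D.g f F i y = Ef D i y / (1 + ww f F y) := rfl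
    unfold XG X2
    rw [e, G3.wsq_eq]
    field_simp
    ring
  refine G3.flux_of_BO hp1 bX (G3.flux_Ef hm) ?_ ?_
  · filter_upwards [eventually_gt_atTop R0] with r hr y hy i
    exact G3.XG_cont hf hF hu hpos (hR0 y (by
      show R0 < ‖y‖
      rw [hy]
      exact hr)).le i
  · filter_upwards with r y _ i
    exact (Ef_cont D i).continuousAt

include hn hf hF hu hg hpos hup hgr hAF in
/-- The flux field with a vector field. -/
theorem flux_XY_aux {m : ℝ} (hm : D.IsEnergy m) {P : Fin n → ℝ} (hP : D.IsMomentum P)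
    {Y : Fin n → E n → ℝ} (hY : ∀ i, Stmt.Smooth (Y i)) {v : Fin n → ℝ}
    (hYa : ∃ a : ℝ, (n : ℝ) / 2 - 1 < a ∧ ∀ i, Stmt.BigO a fun x => Y i x - v i)
    (hua : ∃ a : ℝ, (n : ℝ) / 2 - 1 < a ∧ ∀ i, Stmt.BigO a fun x => u x * Stmt.pd i f x)
    (hub : ∃ b : ℝ, (n : ℝ) - 1 < b ∧ ∀ i, Stmt.BigO b fun x => u x ^ 2 * cf f i x) :
    Tendsto (flux (XY D.g D.K f F u Y)) atTop
      (𝓝 (((n : ℝ) - 1) * om n * (m - (∑ j, v j * P j) / 2))) := by
  have : Fact (3 ≤ n) := ⟨hn⟩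
  obtain ⟨R0, hR0⟩ := D.dom.2.2.2
  have h1 := flux_XG_aux hn hf hF hu hg hpos hup hgr hAF hm hua hub
  have h2 := flux_QY_aux hn hf hF hg hpos hup hAF hP hY hYa
  have h3 := h1.sub (h2.div_const 2)
  have e : ((n : ℝ) - 1) * om n * m - ((n : ℝ) - 1) * om n * (∑ j, v j * P j) / 2 =
      ((n : ℝ) - 1) * om n * (m - (∑ j, v j * P j) / 2) := by ring
  rw [e] at h3
  refine h3.congr' ?_
  filter_upwards [eventually_gt_atTop R0, eventually_gt_atTop 0] with r hr hr0
  have hy : ∀ y : E n, ‖y‖ = r → 0 ≤ D.F y := fun y hy => (hR0 y (by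
      show R0 < ‖y‖
      rw [hy]
      exact hr)).le
  have h4 := flux_sub (W := XG D.g D.K f F u) (W' := fun i y => 1 / 2 * QZ (ww f F) D.g D.K Y i y)
    hr0 (fun i y h => G3.XG_cont hf hF hu hpos (hy y h) i)
    (fun i y h => (G3.QZ_cont hf hF (hy y h) (fun j => (hY j).continuous.continuousAt)
      i).const_mul _)
  have h5 : (fun i y => XG D.g D.K f F u i y - 1 / 2 * QZ (ww f F) D.g D.K Y i y) =
      XY D.g D.K f F u Y := by
    funext i y
    unfold XY
    ring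
  have h6 : flux (fun i y => 1 / 2 * QZ (ww f F) D.g D.K Y i y) r =
      flux (QZ (ww f F) D.g D.K Y) r / 2 := by
    have g3 := KSL.flux_lin (ι := Unit) (W := fun (_ : Unit) (i : Fin n) (y : E n) =>
      QZ (ww f F) D.g D.K Y i y) hr0 (fun _ => -(1 / 2)) (fun _ i y h => G3.QZ_cont hf hF
        (hy y h) (fun j => (hY j).continuous.continuousAt) i)
    simp only [Finset.univ_unique, Finset.sum_singleton, neg_mul, neg_neg] at g3
    rw [g3]
    ring
  rw [h5, h6] at h4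
  exact h4.symm

end main

section final

namespace G3

variable (hg : ∀ x, 0 ≤ D.F x → ∀ i j, D.g x i j = lvlMetric f F x i j)
include hg

lemma wsq_pos (hy : 0 ≤ D.F y) : 0 < wsq f F y := by
  have h1 := CG.sum_sq_pos (a := fun i => Stmt.pd i f y) (c := F y) (D.pos y hy) (hg y hy)
  unfold wsq
  simpa only [sq] using h1

lemma up_lvl (hy : 0 ≤ D.F y) (i j : Fin n) : Stmt.up D.g i j y = (if i = j then 1 else 0) -
    F y * Stmt.pd i f y * Stmt.pd j f y / wsq f F y := by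
  have h0 := (wsq_pos hg hy).ne'
  have e : ∑ i, Stmt.pd i f y * Stmt.pd i f y = ∑ i, Stmt.pd i f y ^ 2 :=
    Finset.sum_congr rfl fun i _ => (sq _).symm
  have h1 := CG.up_gen (g := D.g) (x := y) (a := fun i => Stmt.pd i f y) (F := F y)
    (by rw [e]; exact h0) (hg y hy) i j
  rw [h1, e]
  unfold wsq kd
  ring

lemma grad_f (hy : 0 ≤ D.F y) (i : Fin n) : grad D.g f i y = Stmt.pd i f y / wsq f F y := by
  have h0 := (wsq_pos hg hy).ne'
  unfold grad
  simp only [up_lvl hg hy]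
  have e1 : ∀ j, ((if i = j then (1 : ℝ) else 0) -
      F y * Stmt.pd i f y * Stmt.pd j f y / wsq f F y) * Stmt.pd j f y =
      (if i = j then Stmt.pd j f y else 0) -
        F y * Stmt.pd i f y / wsq f F y * Stmt.pd j f y ^ 2 := fun j => by
    split_ifs <;> ring
  simp only [e1, Finset.sum_sub_distrib, Finset.sum_ite_eq, Finset.mem_univ, if_true,
    ← Finset.mul_sum]
  have e2 : wsq f F y = 1 + F y * ∑ j, Stmt.pd j f y ^ 2 := rfl
  rw [eq_div_iff h0, sub_mul]
  have e3 : F y * Stmt.pd i f y / wsq f F y * (∑ j, Stmt.pd j f y ^ 2) * wsq f F y =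
      F y * Stmt.pd i f y * ∑ j, Stmt.pd j f y ^ 2 := by
    field_simp
  rw [e3, e2]
  ring

end G3

variable (hn : 3 ≤ n) (hf : Stmt.Smooth f) (hF : Stmt.Smooth F) (hu : Stmt.Smooth u)
  (hg : ∀ x, 0 ≤ D.F x → ∀ i j, D.g x i j = lvlMetric f F x i j) (hAF : D.IsAF)
include hn hf hF hg hAF

/-- **[G3]** the flux of the momentum field of a vector field `Y` -/
theorem flux_QY {P : Fin n → ℝ} (hP : D.IsMomentum P) {Y : Fin n → E n → ℝ}
    (hY : ∀ i, Stmt.Smooth (Y i)) {v : Fin n → ℝ}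
    (hYa : ∃ a : ℝ, (n : ℝ) / 2 - 1 < a ∧ ∀ i, Stmt.BigO a fun x => Y i x - v i) :
    Tendsto (flux (QZ (ww f F) D.g D.K Y)) atTop
      (𝓝 (((n : ℝ) - 1) * om n * ∑ j, v j * P j)) :=
  flux_QY_aux hn hf hF hg (fun _ hy => G3.wsq_pos hg hy) (fun _ hy => G3.up_lvl hg hy) hAF hP
    hY hYa

include hu

/-- **[G3]** the flux of the flux field -/
theorem flux_XG {m : ℝ} (hm : D.IsEnergy m)
    (hua : ∃ a : ℝ, (n : ℝ) / 2 - 1 < a ∧ ∀ i, Stmt.BigO a fun x => u x * Stmt.pd i f x)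
    (hub : ∃ b : ℝ, (n : ℝ) - 1 < b ∧ ∀ i, Stmt.BigO b fun x => u x ^ 2 * cf f i x) :
    Tendsto (flux (XG D.g D.K f F u)) atTop (𝓝 (((n : ℝ) - 1) * om n * m)) :=
  flux_XG_aux hn hf hF hu hg (fun _ hy => G3.wsq_pos hg hy) (fun _ hy => G3.up_lvl hg hy)
    (fun _ hy => G3.grad_f hg hy) hAF hm hua hub

/-- **[G3]** the flux of the flux field with a vector field `Y` -/
theorem flux_XY {m : ℝ} (hm : D.IsEnergy m) {P : Fin n → ℝ} (hP : D.IsMomentum P)
    {Y : Fin n → E n → ℝ} (hY : ∀ i, Stmt.Smooth (Y i)) {v : Fin n → ℝ}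
    (hYa : ∃ a : ℝ, (n : ℝ) / 2 - 1 < a ∧ ∀ i, Stmt.BigO a fun x => Y i x - v i)
    (hua : ∃ a : ℝ, (n : ℝ) / 2 - 1 < a ∧ ∀ i, Stmt.BigO a fun x => u x * Stmt.pd i f x)
    (hub : ∃ b : ℝ, (n : ℝ) - 1 < b ∧ ∀ i, Stmt.BigO b fun x => u x ^ 2 * cf f i x) :
    Tendsto (flux (XY D.g D.K f F u Y)) atTop
      (𝓝 (((n : ℝ) - 1) * om n * (m - (∑ j, v j * P j) / 2))) :=
  flux_XY_aux hn hf hF hu hg (fun _ hy => G3.wsq_pos hg hy) (fun _ hy => G3.up_lvl hg hy)
    (fun _ hy => G3.grad_f hg hy) hAF hm hP hY hYa hua hub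

end final

end Vale.Agent.P366.FG
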